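import Vale.Agent.P092.H259.Fk.Gen
import Vale.Agent.P092.H213.Nd.Main
import Vale.Agent.P092.H465.LieR

/-!
P092 (helper259, helper465): the main theorem for the class `UN.ClassLatticeF`.
-/

set_option linter.all false

namespace Vale.Agent.P092.H259.Fk

/-- Every group `IsLieG` is an overgroup of a factor. -/
theorem lieG_ov {G : Type} [Group G] [TopologicalSpace G] (h : UN.IsLieG G) : OvG G := by
  obtain ⟨ht, N, hn, hf, ho, hq⟩ := H465.LieR.lieG h
  exact ovG_of ht N hn hf ho hq

/-- **The main theorem in compact letters**: Q1 for all the lattices `UN.ClassLatticeF`. -/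
theorem superAll_classF (Γ : Type) [Group Γ] (h : UN.ClassLatticeF Γ) : UN.SuperAll Γ :=
  superAll_classF_of (fun _ _ _ h => lieG_ov h) (fun _ _ _ h => H213.Nd.nd_lieG h) Γ h

end Vale.Agent.P092.H259.Fk
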