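import Vale.Agent.P092.H188.LatP
import Vale.Agent.P092.H628.VE1

/-!
P092 (helper259): lattices under proper homomorphisms with range of finite index.
-/

set_option linter.all false

open Set Topology Filter MeasureTheory

namespace Vale.Agent.P092.H259.Fk

open Vale.Agent.P092.H515.St

/-- **Lattices under proper homomorphisms with range of finite index.** -/
theorem lat_proper {E G : Type} [Group E] [TopologicalSpace E] [IsTopologicalGroup E] [Group G]
    [TopologicalSpace G] [IsTopologicalGroup G] [T2Space G] [LocallyCompactSpace G] (f : E →* G)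
    (hf : IsProperMap f) (hr : f.range.FiniteIndex) {Γ : Subgroup E} (hΓ : IsLattice Γ) :
    IsLattice (Γ.map f) := by
  haveI := hΓ.disc
  haveI := hr
  have hcl : IsClosed (f.range : Set G) := by
    have h2 := hf.isClosedMap _ isClosed_univ
    rw [image_univ] at h2
    exact h2
  have hop : IsOpen (f.range : Set G) := Subgroup.isOpen_of_isClosed_of_finiteIndex _ hcl
  have hce : IsClosedEmbedding (f.range.subtype : f.range → G) := hcl.isClosedEmbedding_subtypeVal
  haveI : LocallyCompactSpace f.range := hce.locallyCompactSpace
  have hπc : Continuous f.rangeRestrict := hf.continuous.subtype_mk _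
  have hπp : ∀ C : Set f.range, IsCompact C → IsCompact (f.rangeRestrict ⁻¹' C) := by
    intro C hC
    have h1 := hf.isCompact_preimage (hC.image hce.continuous)
    have h2 : f.rangeRestrict ⁻¹' C = f ⁻¹' (f.range.subtype '' C) := by
      ext x
      constructor
      · intro hx
        exact ⟨_, hx, rfl⟩
      · rintro ⟨y, hy, hyx⟩
        have : f.rangeRestrict x = y := Subtype.ext hyx.symm
        rw [mem_preimage, this]
        exact hy
    rw [h2]
    exact h1
  have h3 : IsLattice (Γ.map f.rangeRestrict) :=
    H793.lattice_map f.rangeRestrict hπc f.rangeRestrict_surjective hΓ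
      (H188.LatP.disc_map f.rangeRestrict hπp Γ)
  have h4 : (Γ.map f.rangeRestrict).map f.range.subtype = Γ.map f := by
    rw [Subgroup.map_map, MonoidHom.subtype_comp_rangeRestrict]
  refine VE628.lat_over f.range.subtype f.range.subtype_injective continuous_subtype_val
    hop.isOpenMap_subtype_val (by rwa [Subgroup.range_subtype]) h3 h4.le ?_
  rw [h4, Subgroup.subgroupOf_self]
  infer_instance

/-- ICC lattices under proper homomorphisms with range of finite index. -/
theorem lat_proper' {Γ : Type} [Group Γ] {E G : Type} [Group E] [TopologicalSpace E]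
    [IsTopologicalGroup E] [Group G] [TopologicalSpace G] [IsTopologicalGroup G] [T2Space G]
    [LocallyCompactSpace G] (hicc : ∀ g : Γ, g ≠ 1 → Set.Infinite {y : Γ | ∃ h, y = h * g * h⁻¹})
    (f : E →* G) (hf : IsProperMap f) (hr : f.range.FiniteIndex) (i : Γ →* E)
    (hi : Function.Injective i) (hΓ : IsLattice i.range) :
    Function.Injective (f.comp i) ∧ IsLattice (f.comp i).range := by
  refine ⟨H188.LatP.inj_map hicc f hf i hi hΓ.disc, ?_⟩
  rw [MonoidHom.range_comp]
  exact lat_proper f hf hr hΓ

end Vale.Agent.P092.H259.Fk
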