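import Vale.Agent.P092.H259.Fk.Prop
import Vale.Agent.P092.H465.NdC
import Vale.Agent.P092.UN.ClsE
import Vale.Agent.P092.UN.ClsL

/-!
P092 (helper259): the main theorem for lattices in groups with a proper homomorphism onto a subgroup of
finite index of a product of overgroups of factors.
-/

set_option linter.all false

open Set Topology Filter MeasureTheory

namespace Vale.Agent.P092.H259.Fk

open Vale.Agent.P092.VR (Ov)
open Vale.Agent.P092.H213.Nd (ND)

/-- `G` contains a factor as an open normal subgroup of finite index. -/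
def OvG (G : Type) [Group G] [TopologicalSpace G] : Prop :=
  ∃ (M : Type) (_ : Group M) (_ : TopologicalSpace M) (φ : M →* G) (r : ℕ), Ov φ r

/-- from a subgroup -/
theorem ovG_of {G : Type} [Group G] [TopologicalSpace G] (ht : IsTopologicalGroup G)
    (N : Subgroup G) (hn : N.Normal) (hf : N.FiniteIndex) (ho : IsOpen (N : Set G))
    (hq : ∃ r, QC.QF N r) : OvG G := by
  obtain ⟨r, hr⟩ := hq
  exact ⟨N, inferInstance, inferInstance, N.subtype, r, VR.ov_subtype ht hn hf ho hr⟩

/-- from an open embedding -/
theorem ovG_of_emb {G M : Type} [Group G] [TopologicalSpace G] [Group M] [TopologicalSpace M]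
    (ht : IsTopologicalGroup G) (φ : M →* G) (hφ : IsOpenEmbedding φ) (hn : φ.range.Normal)
    (hf : φ.range.FiniteIndex) (hq : ∃ r, QC.QF M r) : OvG G := by
  obtain ⟨r, hr⟩ := hq
  exact ⟨M, inferInstance, inferInstance, φ, r,
    { top := ht
      qf := hr
      cont := hφ.continuous
      inj := hφ.injective
      opn := hφ.isOpenMap
      normal := hn
      fin := hf }⟩

/-- the class of classical groups -/
theorem ovG_clsV {G : Type} [Group G] [TopologicalSpace G] (h : UN.ClsV G) : OvG G := by
  obtain ⟨ht, N, hn, hf, ho, hc⟩ := h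
  exact ovG_of ht N hn hf ho (UN.cls_qf hc)

/-- **The main theorem** for lattices of a group `E` with a proper homomorphism onto a subgroup of
finite index of a product of overgroups of factors. -/
theorem superAll_prop {Γ I : Type} [Fintype I] [Group Γ] (hicc : UN.ICC Γ) {G : I → Type}
    [∀ j, Group (G j)] [∀ j, TopologicalSpace (G j)] {E : Type} [Group E] [TopologicalSpace E]
    [IsTopologicalGroup E] (f : E →* ∀ j, G j) (hf : IsProperMap f) (hr : f.range.FiniteIndex)
    (i : Γ →* E) (hi : Function.Injective i) (hl : UN.IsLattice i.range) (hG : ∀ j, OvG (G j))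
    (hd : ∀ j, IsOpen (closure (Set.range fun g => f (i g) j)) ∨
      ND (G j) ∧ ¬ DiscreteTopology (Set.range fun g => f (i g) j)) : UN.SuperAll Γ := by
  choose M gM tM φ r hφ using hG
  haveI := fun j => (hφ j).top
  haveI := fun j => H333.V.Ov.lc (hφ j)
  haveI := fun j => H333.V.Ov.t2 (hφ j)
  obtain ⟨h1, h2⟩ := lat_proper' hicc f hf hr i hi ⟨hl.disc, hl.covol⟩
  exact UN.superAll_of (Nd.superAll_nd hφ (f.comp i) h1 h2 hd ((UN.icc_iff Γ).1 hicc))

/-- **The main theorem in compact letters**, from the two facts on `IsLieG`. -/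
theorem superAll_classF_of
    (hL : ∀ (G : Type) [Group G] [TopologicalSpace G], UN.IsLieG G → OvG G)
    (hN : ∀ (G : Type) [Group G] [TopologicalSpace G], UN.IsLieG G → ND G)
    (Γ : Type) [Group Γ] (h : UN.ClassLatticeF Γ) : UN.SuperAll Γ := by
  obtain ⟨hicc, I, hI, G, hg, ht, E, gE, tE, f, i, htE, hf, hr, hi, hl, hd⟩ := h
  refine superAll_prop hicc f hf hr i hi hl (fun j => ?_) fun j => ?_
  · rcases hd j with h | h
    · exact ovG_clsV h.1
    · exact hL _ h.1
  · rcases hd j with h | h
    · exact Or.inl h.2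
    · exact Or.inr ⟨hN _ h.1, h.2⟩

end Vale.Agent.P092.H259.Fk
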