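import Vale.Agent.P092.UN.Eqv
import Vale.Agent.P092.H793.Lat

/-!
P092 (helper259): lattices with dense projections and quotients of the factors by finite normal
subgroups.
-/

set_option linter.all false

open Set Topology Filter MeasureTheory
open scoped Pointwise

namespace Vale.Agent.P092.H259.Fk

section proper

variable {E G : Type*} [Group E] [TopologicalSpace E] [IsTopologicalGroup E] [Group G]
  [TopologicalSpace G]

/-- Quotient homomorphisms with a compact kernel are proper. -/
theorem proper_of_quoC (f : E →* G) (hf : IsQuotientMap f) (hK : IsCompact (f.ker : Set E))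
    {C : Set G} (hC : IsCompact C) : IsCompact (f ⁻¹' C) := by
  have hcl : IsClosedMap f := by
    intro F hF
    rw [← hf.isClosed_preimage]
    have e : f ⁻¹' (f '' F) = F * (f.ker : Set E) := by
      ext x
      constructor
      · rintro ⟨y, hy, hxy⟩
        refine ⟨y, hy, y⁻¹ * x, ?_, by group⟩
        show f (y⁻¹ * x) = 1
        rw [map_mul, map_inv, hxy, inv_mul_cancel]
      · rintro ⟨y, hy, z, hz, rfl⟩
        have hz' : f z = 1 := hz
        exact ⟨y, hy, by
          show f y = f (y * z)
          rw [map_mul, hz', mul_one]⟩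
    rw [e]
    exact hF.mul_right_of_isCompact hK
  have hp : IsProperMap f := by
    rw [isProperMap_iff_isClosedMap_and_compact_fibers]
    refine ⟨hf.continuous, hcl, fun y => ?_⟩
    obtain ⟨x, rfl⟩ := hf.surjective y
    have e : f ⁻¹' {f x} = (fun z => x * z) '' (f.ker : Set E) := by
      ext z
      constructor
      · intro hz
        have hz' : f z = f x := hz
        refine ⟨x⁻¹ * z, ?_, by group⟩
        show f (x⁻¹ * z) = 1
        rw [map_mul, map_inv, hz', inv_mul_cancel]
      · rintro ⟨w, hw, rfl⟩
        have hw' : f w = 1 := hw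
        show f (x * w) = f x
        rw [map_mul, hw', mul_one]
    rw [e]
    exact hK.image (continuous_const_mul x)
  exact hp.isCompact_preimage hC

/-- Quotient homomorphisms with a finite kernel are proper. -/
theorem proper_of_quo (f : E →* G) (hf : IsQuotientMap f) (hk : Finite f.ker) {C : Set G}
    (hC : IsCompact C) : IsCompact (f ⁻¹' C) :=
  proper_of_quoC f hf (Set.toFinite (f.ker : Set E)).isCompact hC

end proper

/-- **Compact normal subgroups may be divided out**: an ICC lattice `Γ` of `E` is a lattice of
`∏ G j`, if `f : E → ∏ G j` is a quotient homomorphism with a compact kernel. -/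
theorem denseLattice_cpt {Γ I : Type} [Finite I] [Group Γ] {E : Type} [Group E]
    [TopologicalSpace E] [IsTopologicalGroup E] [T2Space E] {G : I → Type} [∀ j, Group (G j)]
    [∀ j, TopologicalSpace (G j)] [∀ j, IsTopologicalGroup (G j)] [∀ j, T2Space (G j)]
    [∀ j, LocallyCompactSpace (G j)] (hicc : UN.ICC Γ) (i : Γ →* E) (hi : Function.Injective i)
    (hl : H515.St.IsLattice i.range) (f : E →* ∀ j, G j) (hf : IsQuotientMap f)
    (hk : IsCompact (f.ker : Set E)) (hd : ∀ j, DenseRange fun g => f (i g) j) :
    SR.St.DenseLattice (f.comp i) := by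
  have hdi := hl.disc
  have hr : i.range.map f = (f.comp i).range := by
    ext x
    constructor
    · rintro ⟨_, ⟨g, rfl⟩, rfl⟩
      exact ⟨g, rfl⟩
    · rintro ⟨g, rfl⟩
      exact ⟨_, ⟨g, rfl⟩, rfl⟩
  refine ⟨?_, ?_, hd⟩
  · rw [injective_iff_map_eq_one]
    intro x hx
    by_contra hne
    have hfin : Set.Finite {y : Γ | f (i y) = 1} := by
      have h1 : ((Subtype.val : i.range → E) ⁻¹' (f.ker : Set E)).Finite :=
        H790.finite_inter i.range hk
      refine Set.Finite.subset (h1.preimage (f := fun y : Γ => (⟨i y, y, rfl⟩ : i.range)) ?_) ?_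
      · intro a _ b _ hab
        exact hi (congrArg Subtype.val hab)
      · intro y hy
        exact hy
    refine hicc x hne (hfin.subset ?_)
    rintro y ⟨h, rfl⟩
    show f (i (h * x * h⁻¹)) = 1
    have hx' : f (i x) = 1 := hx
    rw [map_mul, map_mul, map_mul, map_mul, hx', mul_one, ← map_mul, ← map_mul, mul_inv_cancel,
      map_one, map_one]
  · rw [← hr]
    exact H793.lattice_map f hf.continuous hf.surjective hl
      (H793.discrete_map f (fun C hC => proper_of_quoC f hf hk hC) _)

variable {Γ I : Type} [Finite I] [Group Γ] {E G : I → Type} [∀ j, Group (E j)]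
  [∀ j, TopologicalSpace (E j)] [∀ j, Group (G j)] [∀ j, TopologicalSpace (G j)]

/-- the product homomorphism -/
def pf (f : ∀ j, E j →* G j) : (∀ j, E j) →* ∀ j, G j :=
  MonoidHom.pi fun j => (f j).comp (Pi.evalMonoidHom E j)

theorem pf_apply (f : ∀ j, E j →* G j) (x : ∀ j, E j) (j : I) : pf f x j = f j (x j) := rfl

/-- **Finite normal subgroups of the factors may be divided out.** -/
theorem denseLattice_fin [∀ j, IsTopologicalGroup (E j)] [∀ j, T2Space (E j)]
    [∀ j, IsTopologicalGroup (G j)] [∀ j, T2Space (G j)] [∀ j, LocallyCompactSpace (G j)]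
    (i : Γ →* ∀ j, E j) (hi : SR.St.DenseLattice i) (hicc : UN.ICC Γ) (f : ∀ j, E j →* G j)
    (hf : ∀ j, IsQuotientMap (f j)) (hk : ∀ j, Finite (f j).ker) :
    SR.St.DenseLattice ((pf f).comp i) := by
  have hcont : Continuous (pf f) := continuous_pi fun j =>
    (hf j).continuous.comp (continuous_apply j)
  have hsurj : Function.Surjective (pf f) := fun x => by
    choose y hy using fun j => (hf j).surjective (x j)
    exact ⟨y, funext hy⟩
  have hproper : ∀ C : Set (∀ j, G j), IsCompact C → IsCompact ((pf f) ⁻¹' C) := by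
    intro C hC
    refine (isCompact_univ_pi fun j => proper_of_quo (f j) (hf j) (hk j)
      (hC.image (continuous_apply j))).of_isClosed_subset (hC.isClosed.preimage hcont) ?_
    intro x hx j _
    exact ⟨_, hx, rfl⟩
  have hd := hi.lat.disc
  have hr : i.range.map (pf f) = ((pf f).comp i).range := by
    ext x
    constructor
    · rintro ⟨_, ⟨g, rfl⟩, rfl⟩
      exact ⟨g, rfl⟩
    · rintro ⟨g, rfl⟩
      exact ⟨_, ⟨g, rfl⟩, rfl⟩
  refine ⟨?_, ?_, fun j => ?_⟩
  · rw [injective_iff_map_eq_one]
    intro x hx
    by_contra hne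
    have hfin : Set.Finite {y : Γ | (pf f) (i y) = 1} := by
      have h1 : Set.Finite (Set.univ.pi fun j => ((f j).ker : Set (E j))) :=
        Set.Finite.pi fun j => Set.toFinite ((f j).ker : Set (E j))
      refine Set.Finite.subset (h1.preimage hi.inj.injOn) ?_
      intro y hy j _
      exact congrFun (hy : (pf f) (i y) = 1) j
    refine hicc x hne (hfin.subset ?_)
    rintro y ⟨h, rfl⟩
    show (pf f) (i (h * x * h⁻¹)) = 1
    have hx' : (pf f) (i x) = 1 := hx
    rw [map_mul, map_mul, map_mul, map_mul, hx', mul_one, ← map_mul, ← map_mul, mul_inv_cancel,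
      map_one, map_one]
  · rw [← hr]
    exact H793.lattice_map (pf f) hcont hsurj hi.lat (H793.discrete_map (pf f) hproper _)
  · exact ((hf j).surjective.denseRange.comp (hi.dense j) (hf j).continuous)

end Vale.Agent.P092.H259.Fk
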